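import Vale.Agent.P129B.Erd
import Vale.Agent.P129BP.Rep0
import Vale.Agent.P129BZ.Zorn
import Vale.Agent.P129BL.Enum
import Vale.Agent.P129BQ.Defs

/-!
# Free sequences from the partition relation, inside a model
-/

set_option linter.unusedSectionVars false

namespace Vale.Agent.P129B.C1

open Vale.Agent.P323.Z Vale.Agent.P129BP

universe v

variable {N : Type v} [ZM N] {K : Type*} [Coded N K] [Tot N K]

/-- the set of the first `n` values -/
def seg (f : NN N → K) (n : NN N) : Set K := {x | ∃ i, i < n ∧ f i = x}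

@[fun_prop] theorem defF_seg {α : Type*} [Coded N α] {f : α → NN N → K} {n : α → NN N}
    (hf : DefF N f) (hn : DefF N n) : DefF N (fun a => seg (f a) (n a)) := by
  have := hf.uncurry
  unfold seg
  fun_prop

theorem intl_seg (f : NN N → K) [Intl N f] (n : NN N) : Intl N (seg f n) :=
  intl_setOfT (by fun_prop)

variable (N) in
/-- The partition relation, for definable colourings. -/
def Erd (K : Type*) [Coded N K] [Tot N K] : Prop :=
  ∀ C : Set K → Prop, DefF N C → ∃ H : Set K, Intl N H ∧ H.Nonempty ∧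
    (∀ (n : NN N) v, Intl N v → ¬ H ⊆ seg v n) ∧
    ∀ (n : NN N) (f g : NN N → K), Intl N f → Intl N g →
      (∀ i j, i < n → j < n → f i = f j → i = j) → (∀ i j, i < n → j < n → g i = g j → i = j) →
      (∀ i, f i ∈ H) → (∀ i, g i ∈ H) → (C (seg f n) ↔ C (seg g n))

theorem isFinite_of_empty {H : N} (h : ∀ x, ¬ x ∈ H) : P129Z.S.IsFinite ZM.E H :=
  ⟨omega N, (0 : NN N).val, H, isOmega_iff.2 rfl, NN.prop _,
    isFunction_iff.2 ⟨fun p hp => (h p hp).elim, fun x hx => (not_mem_emp x hx).elim⟩,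
    fun y hy => (h y hy).elim⟩

/-- A subset of a finite set is finite. -/
theorem exists_seg_of_subset {H : Set K} [Intl N H] {a : K} (ha : a ∈ H) {n : NN N}
    {v : NN N → K} [Intl N v] (h : H ⊆ seg v n) :
    ∃ (n : NN N) (w : NN N → K), Intl N w ∧ H = w '' Set.Iio n := by
  classical
  obtain ⟨i₀, hi₀, -⟩ := h ha
  refine ⟨n, fun i => if v i ∈ H then v i else a, DefF.toIntl (by fun_prop),
    Set.ext fun x => ⟨fun hx => ?_, ?_⟩⟩
  · obtain ⟨i, hi, rfl⟩ := h hx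
    exact ⟨i, hi, if_pos hx⟩
  · rintro ⟨i, -, rfl⟩
    dsimp only
    split_ifs with h'
    exacts [h', ha]

theorem exists_bij {n : NN N} {f g : NN N → K} [Intl N f] [Intl N g]
    (hf : ∀ i j, i < n → j < n → f i = f j → i = j)
    (hg : ∀ i j, i < n → j < n → g i = g j → i = j) :
    ∃ b, IsInjection ZM.E b (code N (seg f n)) (code N (seg g n)) ∧
      IsSurjection ZM.E b (code N (seg f n)) (code N (seg g n)) := by
  have h0 : Intl N (seg (fun i => (f i, g i)) n) := intl_setOfT (by fun_prop)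
  have hs := intl_seg f n
  have ht := intl_seg g n
  have h1 : ∀ p, p ∈ code N (seg (fun i => (f i, g i)) n) ↔
      ∃ i, i < n ∧ op (code N (f i)) (code N (g i)) = p := fun p => by
    rw [mem_code_set h0]
    constructor
    · rintro ⟨_, ⟨i, hi, rfl⟩, rfl⟩
      exact ⟨i, hi, rfl⟩
    · rintro ⟨i, hi, rfl⟩
      exact ⟨_, ⟨i, hi, rfl⟩, rfl⟩
  have inj : ∀ a b : K, code N a = code N b → a = b := fun a b =>
    code_inj inferInstance inferInstance
  have hF : IsFunction ZM.E (code N (seg (fun i => (f i, g i)) n)) (code N (seg f n))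
      (code N (seg g n)) := by
    refine isFunction_iff.2 ⟨fun p hp => ?_, fun x hx => ?_⟩
    · obtain ⟨i, hi, rfl⟩ := (h1 p).1 hp
      exact ⟨_, _, (mem_code_set hs).2 ⟨_, ⟨i, hi, rfl⟩, rfl⟩,
        (mem_code_set ht).2 ⟨_, ⟨i, hi, rfl⟩, rfl⟩, rfl⟩
    · obtain ⟨_, ⟨i, hi, rfl⟩, rfl⟩ := (mem_code_set hs).1 hx
      refine ⟨_, (h1 _).2 ⟨i, hi, rfl⟩, fun y hy => ?_⟩
      obtain ⟨j, hj, h⟩ := (h1 _).1 hy
      obtain ⟨h2, rfl⟩ := op_inj.1 h
      rw [hf j i hj hi (inj _ _ h2)]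
  refine ⟨_, ⟨hF, fun x x' y h h' => ?_⟩, hF, fun y hy => ?_⟩
  · obtain ⟨i, hi, h2⟩ := (h1 _).1 (pairMem_iff.1 h)
    obtain ⟨j, hj, h3⟩ := (h1 _).1 (pairMem_iff.1 h')
    obtain ⟨rfl, rfl⟩ := op_inj.1 h2
    obtain ⟨rfl, h4⟩ := op_inj.1 h3
    rw [hg j i hj hi (inj _ _ h4)]
  · obtain ⟨_, ⟨i, hi, rfl⟩, rfl⟩ := (mem_code_set ht).1 hy
    exact ⟨_, (mem_code_set hs).2 ⟨_, ⟨i, hi, rfl⟩, rfl⟩, pairMem_iff.2 ((h1 _).2 ⟨i, hi, rfl⟩)⟩

theorem erd_of_hasErdos (h : S.HasErdos (ZM.E (N := N))) : ∃ A : N, Erd N (El A) := by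
  obtain ⟨A, hA⟩ := h
  refine ⟨A, fun C hC => ?_⟩
  have hC' := intl_setOf hC
  obtain ⟨H₀, h1, h2, h3⟩ := hA (code N {s : Set (El A) | Intl N s ∧ C s})
  obtain ⟨H, hH, rfl⟩ := (isCar_el A).exists_set h1
  have hne : H.Nonempty := by
    by_contra hn
    refine h2 (isFinite_of_empty fun x hx => ?_)
    obtain ⟨a, ha, -⟩ := (mem_code_set hH).1 hx
    exact hn ⟨a, ha⟩
  obtain ⟨a, ha⟩ := hne
  refine ⟨H, hH, ⟨a, ha⟩, fun n v hv hs => h2 ((isFinite_code hH a).2 (exists_seg_of_subset ha hs)),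
    fun n f g hf hg fi gi fH gH => ?_⟩
  have hs := intl_seg f n
  have ht := intl_seg g n
  have h4 := h3 (code N (seg f n)) (code N (seg g n))
    ((sub_code_iff hs hH).2 fun x ⟨i, _, hx⟩ => hx ▸ fH i)
    ((sub_code_iff ht hH).2 fun x ⟨i, _, hx⟩ => hx ▸ gH i)
    ((isFinite_code hs a).2 ⟨n, f, hf, rfl⟩) (exists_bij fi gi)
  have h5 := (code_mem_code hC' hs).symm.trans (h4.trans (code_mem_code hC' ht))
  exact ⟨fun hc => (h5.1 ⟨hs, hc⟩).2, fun hc => (h5.2 ⟨ht, hc⟩).2⟩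

section Order

variable {lt : K → K → Prop}

/-- `f` is increasing below `n`. -/
def Inc (lt : K → K → Prop) (f : NN N → K) (n : NN N) : Prop :=
  ∀ i j, i < j → j < n → lt (f i) (f j)

omit [Coded N K] [Tot N K] in
theorem Inc.inj (irr : ∀ x, ¬ lt x x) {f : NN N → K} {n : NN N} (h : Inc lt f n) (i j : NN N)
    (hi : i < n) (hj : j < n) (e : f i = f j) : i = j := by
  rcases lt_trichotomy i j with k | k | k
  · exact (irr _ (e ▸ h i j k hj)).elim
  · exact k
  · exact (irr _ (e ▸ h j i k hi)).elim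

theorem Inc.uniq (irr : ∀ x, ¬ lt x x) (tr : ∀ x y z, lt x y → lt y z → lt x z)
    {f g : NN N → K} [Intl N f] [Intl N g] {n m : NN N} (hf : Inc lt f n) (hg : Inc lt g m)
    (e : seg f n = seg g m) (i : NN N) : i < n → i < m ∧ f i = g i := by
  refine NN.strong_ind (P := fun i => i < n → i < m ∧ f i = g i) (by fun_prop)
    (fun i ih hi => ?_) i
  obtain ⟨j, hj, h1⟩ : f i ∈ seg g m := e ▸ ⟨i, hi, rfl⟩
  have hij : i ≤ j := not_lt.1 fun k =>
    k.ne (hf.inj irr j i (k.trans hi) hi ((ih j k (k.trans hi)).2.trans h1))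
  have him := hij.trans_lt hj
  obtain ⟨l, hl, h2⟩ : g i ∈ seg f n := e ▸ ⟨i, him, rfl⟩
  have hil : i ≤ l := not_lt.1 fun k =>
    k.ne (hg.inj irr l i (k.trans him) him ((ih l k hl).2.symm.trans h2))
  refine ⟨him, ?_⟩
  rcases hij.eq_or_lt with rfl | k
  · exact h1.symm
  · have h3 : lt (f l) (f i) := by
      rw [h2, ← h1]
      exact hg i j k hj
    rcases hil.eq_or_lt with rfl | k'
    · exact (irr _ h3).elim
    · exact (irr _ (tr _ _ _ h3 (hf i l k' hl))).elim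

/-- An infinite set contains an increasing sequence. -/
theorem exists_inc (hlt : DefF N (fun p : K × K => lt p.1 p.2))
    (tr : ∀ x y z, lt x y → lt y z → lt x z)
    (wo : ∀ S : Set K, Intl N S → S.Nonempty → ∃ x ∈ S, ∀ y ∈ S, x = y ∨ lt x y)
    {H : Set K} [Intl N H] (hne : H.Nonempty) (hH : ∀ (n : NN N) v, Intl N v → ¬ H ⊆ seg v n) :
    ∃ g : NN N → K, Intl N g ∧ (∀ i, g i ∈ H) ∧ ∀ i j, i < j → lt (g i) (g j) := by
  classical
  obtain ⟨b₀, hb₀, h₀⟩ := wo H inferInstance hne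
  obtain ⟨g, h1, -, h2⟩ := exists_intl_seq (N := N)
    (Inv := fun n (b : K) => b ∈ H ∧ ∃ v : NN N → K, Intl N v ∧
      ∀ x, x ∈ H → ¬ lt b x → x ∈ seg v (n + 1))
    (R := fun _ b c => lt b c) (by fun_prop) (by fun_prop) b₀
    ⟨hb₀, fun _ => b₀, inferInstance, fun x hx h =>
      ⟨0, NN.lt_add_one 0, (h₀ x hx).resolve_right h⟩⟩ (by
      rintro n b - ⟨hb, v, hv, h⟩
      obtain ⟨c, hc, hm⟩ := wo {x | x ∈ H ∧ lt b x} (intl_setOfT (by fun_prop)) (by
        by_contra hn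
        exact hH (n + 1) v hv fun x hx => h x hx fun k => hn ⟨x, hx, k⟩)
      refine ⟨c, inferInstance, ⟨hc.1, Function.update v (n + 1) c, inferInstance,
        fun x hx k => ?_⟩, hc.2⟩
      by_cases k' : lt b x
      · exact ⟨n + 1, NN.lt_add_one _,
          (Function.update_self ..).trans ((hm x ⟨hx, k'⟩).resolve_right k)⟩
      · obtain ⟨i, hi, rfl⟩ := h x hx k'
        exact ⟨i, hi.trans (NN.lt_add_one _), Function.update_of_ne hi.ne ..⟩)
  refine ⟨g, h1, fun i => (h2 i).1.1, fun i j hij => ?_⟩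
  exact NN.le_ind (P := fun j => lt (g i) (g j)) (by fun_prop) (h2 i).2
    (fun n _ h => tr _ _ _ h (h2 n).2) (NN.add_one_le_iff.2 hij)

end Order

theorem le_pr (c b : NN N) : b ≤ NN.pr c b :=
  NN.ind (P := fun b => b ≤ NN.pr c b) (by fun_prop) (NN.zero_le' _) (fun b h =>
    NN.add_one_le_iff.2 (h.trans_lt (NN.pr_lt (add_lt_add_right (NN.lt_add_one b) c)))) b

theorem hasFree_of_erd (h : Erd N K) : HasFree N K := by
  classical
  intro F hF
  obtain ⟨lt, hlt, irr, tr, -, wo⟩ := exists_defF_wo (N := N) (Set.univ : Set K)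
  obtain ⟨H, hH, hne, hinf, hc⟩ := h (fun s => ∃ n : NN N, ∃ f : NN N → K, Intl N f ∧
    (∀ i j, i < j → j < n → lt (f i) (f j)) ∧ s = seg f n ∧
      f n.p1.p1.p1 = F (f '' n.p1.p1.p2.enS) n.p1.p2.p1 n.p1.p2.p2) (by fun_prop)
  obtain ⟨g, hg, gH, gi⟩ := exists_inc hlt tr (fun S hS => wo S hS (Set.subset_univ S)) hne hinf
  have hg2 : Intl N (fun i => g (i + i)) := DefF.toIntl (by fun_prop)
  refine ⟨fun i => g (i + i), hg2, ?_⟩
  rintro T hT ⟨b, hb⟩ j hj m k e
  obtain ⟨t, ht⟩ := NN.exists_enS T hb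
  obtain ⟨n, hn⟩ : ∃ n, n = NN.pr (NN.pr (NN.pr j t) (NN.pr m k)) (b + (j + 1)) := ⟨_, rfl⟩
  have h1 : b + (j + 1) ≤ n := hn ▸ le_pr _ _
  have hbn : b ≤ n := le_self_add.trans h1
  have hjn : j < n := NN.add_one_le_iff.1 (le_add_self.trans h1)
  have e1 : n.p1.p1.p1 = j := by simp [hn]
  have e2 : n.p1.p1.p2.enS = T := by simp [hn, ht]
  have e3 : n.p1.p2.p1 = m := by simp [hn]
  have e4 : n.p1.p2.p2 = k := by simp [hn]
  have hf : Intl N (fun i => g (if i = j then i + i + 1 else i + i)) := DefF.toIntl (by fun_prop)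
  have i1 : Inc lt (fun i => g (i + i)) n := fun a c hac _ => gi _ _ (add_lt_add hac hac)
  have i2 : Inc lt (fun i => g (if i = j then i + i + 1 else i + i)) n := fun a c hac _ => by
    refine gi _ _ ?_
    have h2 : a + a + 1 < c + c := by
      rw [add_assoc]
      exact add_lt_add_of_lt_of_le hac (NN.add_one_le_iff.2 hac)
    have h3 : c + c ≤ if c = j then c + c + 1 else c + c := by
      split_ifs
      exacts [le_self_add, le_rfl]
    have h4 : (if a = j then a + a + 1 else a + a) ≤ a + a + 1 := by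
      split_ifs
      exacts [le_rfl, le_self_add]
    exact (h4.trans_lt h2).trans_le h3
  obtain ⟨n', f, hf', i3, e5, e6⟩ := (hc n _ _ hg2 hf (i1.inj irr) (i2.inj irr) (fun i => gH _)
    fun i => gH _).1 ⟨n, _, hg2, i1, rfl, by rw [e1, e2, e3, e4]; exact e⟩
  have u1 := Inc.uniq irr tr i2 i3 e5
  have u2 := Inc.uniq irr tr i3 i2 e5.symm
  obtain rfl : n = n' := le_antisymm (not_lt.1 fun k => lt_irrefl _ (u1 _ k).1)
    (not_lt.1 fun k => lt_irrefl _ (u2 _ k).1)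
  have e7 : f '' T = (fun i => g (i + i)) '' T := Set.image_congr fun i hi => by
    rw [← (u1 i ((hb i hi).trans_le hbn)).2, if_neg fun (k : i = j) => hj (k ▸ hi)]
  rw [e1, e2, e3, e4, e7, ← e, ← (u1 j hjn).2, if_pos rfl] at e6
  exact irr _ (e6 ▸ gi _ _ (NN.lt_add_one (j + j)))

end Vale.Agent.P129B.C1

namespace Vale.Agent.P129B

universe v

/-- The partition relation gives free sequences. -/
theorem hasFree_of_erdos {N : Type v} [ZM N] (h : S.HasErdos (ZM.E (N := N))) :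
    ∃ A : N, HasFree N (El A) :=
  (C1.erd_of_hasErdos h).imp fun _ => C1.hasFree_of_erd

end Vale.Agent.P129B
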