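import Vale.Agent.P129B.Meas
import Mathlib.SetTheory.ZFC.Cardinal
import Mathlib.SetTheory.ZFC.Ordinal

/-!
# In the universe of sets, `HasMeasurable` is the existence of a measurable cardinal
-/

namespace Vale.Agent.P129B.C1

open Vale.Agent.P323.Z Vale.Agent.P129Z.S Vale.Agent.P129B.S Cardinal

universe u

/-- membership of sets -/
abbrev Mem : ZFSet.{u} → ZFSet.{u} → Prop := fun x y => x ∈ y

theorem isOPair_iff {p x y : ZFSet.{u}} : IsOPair Mem p x y ↔ p = ZFSet.pair x y := by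
  have h1 : ∀ p a b : ZFSet.{u}, IsUPair Mem p a b ↔ p = {a, b} := fun p a b =>
    ⟨fun h => ZFSet.ext fun z => (h z).trans ZFSet.mem_pair.symm,
      fun h z => h ▸ ZFSet.mem_pair⟩
  simp only [IsOPair, h1]
  constructor
  · rintro ⟨_, _, rfl, rfl, rfl⟩
    simp [ZFSet.pair]
  · rintro rfl
    exact ⟨_, _, rfl, rfl, by simp [ZFSet.pair]⟩

theorem pairMem_iff {x y f : ZFSet.{u}} : PairMem Mem x y f ↔ ZFSet.pair x y ∈ f := by
  simp only [PairMem, isOPair_iff]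
  constructor
  · rintro ⟨_, rfl, h⟩
    exact h
  · intro h
    exact ⟨_, rfl, h⟩

theorem inj_iff {A B : ZFSet.{u}} : (∃ j, IsInjection Mem j A B) ↔ A.card ≤ B.card := by
  rw [← Cardinal.lift_le.{u + 1}, ← ZFSet.cardinalMk_coe_sort, ← ZFSet.cardinalMk_coe_sort]
  constructor
  · rintro ⟨j, hj, hi⟩
    have H : ∀ a : A, ∃ b : B, PairMem Mem a.1 b.1 j := fun a => by
      obtain ⟨y, hy, -⟩ := hj.value a.1 a.2
      obtain ⟨x', y', -, h2, h3⟩ := hj.pairs _ (pairMem_iff.1 hy)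
      obtain ⟨-, rfl⟩ := ZFSet.pair_inj.1 (isOPair_iff.1 h3)
      exact ⟨⟨y, h2⟩, hy⟩
    choose f hf using H
    refine Cardinal.mk_le_of_injective (f := f) fun a a' h => Subtype.ext ?_
    exact hi _ _ _ (hf a) (h ▸ hf a')
  · rintro ⟨f⟩
    have hm : ∀ p, p ∈ (A.prod B).sep (fun p => ∃ a : A, p = ZFSet.pair a.1 (f a).1) ↔
        ∃ a : A, p = ZFSet.pair a.1 (f a).1 := fun p => by
      rw [ZFSet.mem_sep]
      refine and_iff_right_of_imp ?_
      rintro ⟨a, rfl⟩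
      exact ZFSet.mem_prod.2 ⟨_, a.2, _, (f a).2, rfl⟩
    refine ⟨(A.prod B).sep (fun p => ∃ a : A, p = ZFSet.pair a.1 (f a).1), ⟨?_, ?_⟩, ?_⟩
    · intro p hp
      obtain ⟨a, rfl⟩ := (hm p).1 hp
      exact ⟨_, _, a.2, (f a).2, isOPair_iff.2 rfl⟩
    · intro x hx
      refine ⟨(f ⟨x, hx⟩).1, pairMem_iff.2 ((hm _).2 ⟨⟨x, hx⟩, rfl⟩), fun y hy => ?_⟩
      obtain ⟨a, ha⟩ := (hm _).1 (pairMem_iff.1 hy)
      obtain ⟨rfl, rfl⟩ := ZFSet.pair_inj.1 ha
      rfl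
    · intro x x' y h h'
      obtain ⟨a, ha⟩ := (hm _).1 (pairMem_iff.1 h)
      obtain ⟨a', ha'⟩ := (hm _).1 (pairMem_iff.1 h')
      obtain ⟨rfl, rfl⟩ := ZFSet.pair_inj.1 ha
      obtain ⟨rfl, h2⟩ := ZFSet.pair_inj.1 ha'
      exact congrArg Subtype.val (f.injective (Subtype.ext h2))

theorem cardLt_iff {A B : ZFSet.{u}} : CardLt Mem A B ↔ A.card < B.card := by
  rw [CardLt, inj_iff, inj_iff, lt_iff_le_not_ge]

theorem isOmega_omega0 : IsOmega Mem (Ordinal.omega0.{u}.toZFSet) := by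
  refine ⟨⟨⟨∅, ?_, fun z => ZFSet.notMem_empty z⟩, fun x hx => ?_⟩, fun w hw x hx => ?_⟩
  · exact Ordinal.mem_toZFSet_iff.2 ⟨0, Ordinal.omega0_pos, Ordinal.toZFSet_zero⟩
  · obtain ⟨a, ha, rfl⟩ := Ordinal.mem_toZFSet_iff.1 hx
    obtain ⟨n, rfl⟩ := Ordinal.lt_omega0.1 ha
    refine ⟨_, Ordinal.mem_toZFSet_iff.2 ⟨(n : Ordinal) + 1, ?_, rfl⟩, fun z => ?_⟩
    · exact_mod_cast Ordinal.natCast_lt_omega0 (n + 1)
    · show z ∈ Ordinal.toZFSet _ ↔ _
      rw [Ordinal.toZFSet_add_one, ZFSet.mem_insert_iff, or_comm]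
  · obtain ⟨a, ha, rfl⟩ := Ordinal.mem_toZFSet_iff.1 hx
    obtain ⟨n, rfl⟩ := Ordinal.lt_omega0.1 ha
    clear ha hx
    induction n with
    | zero =>
      obtain ⟨e, he, h0⟩ := hw.1
      have : e = ∅ := (ZFSet.eq_empty e).2 h0
      simpa [this] using he
    | succ n ih =>
      obtain ⟨s, hs, h1⟩ := hw.2 _ ih
      have : s = insert (Ordinal.toZFSet n) (Ordinal.toZFSet n) :=
        ZFSet.ext fun z => (h1 z).trans (by rw [ZFSet.mem_insert_iff, or_comm])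
      show Ordinal.toZFSet ((n + 1 : ℕ) : Ordinal) ∈ w
      rw [Nat.cast_succ, Ordinal.toZFSet_add_one, ← this]
      exact hs

theorem card_omega0 : (Ordinal.omega0.{u}.toZFSet).card = ℵ₀ := by
  rw [Ordinal.card_toZFSet, Ordinal.card_omega0]

theorem uncountable_iff {K : ZFSet.{u}} :
    (∀ w, IsOmega Mem w → CardLt Mem w K) ↔ ℵ₀ < K.card := by
  constructor
  · intro h
    rw [← card_omega0]
    exact cardLt_iff.1 (h _ isOmega_omega0)
  · intro h w hw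
    have : w = Ordinal.omega0.toZFSet :=
      ZFSet.ext fun z => ⟨hw.2 _ isOmega_omega0.1 z, isOmega_omega0.2 _ hw.1 z⟩
    rw [cardLt_iff, this, card_omega0]
    exact h

theorem exists_enum (K : ZFSet.{u}) {κ : Cardinal.{u}} (h : K.card = κ) :
    ∃ e : κ.out → ZFSet.{u}, Function.Injective e ∧ ∀ x, x ∈ K ↔ ∃ a, e a = x := by
  obtain ⟨g⟩ : Nonempty (κ.out ≃ Shrink.{u} K) := Cardinal.eq.1 (by rw [mk_out, ← h]; rfl)
  refine ⟨fun a => ((equivShrink K).symm (g a)).1, fun a b hab => ?_, fun x => ⟨fun hx => ?_, ?_⟩⟩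
  · exact g.injective ((equivShrink K).symm.injective (Subtype.ext hab))
  · exact ⟨g.symm (equivShrink K ⟨x, hx⟩), by simp⟩
  · rintro ⟨a, rfl⟩
    exact ((equivShrink K).symm (g a)).2

theorem measurable_of_isMeasure {K U : ZFSet.{u}} (h : IsMeasure Mem K U) :
    IsMeasurableCardinal K.card := by
  obtain ⟨e, he, hK⟩ := exists_enum K rfl
  obtain ⟨im, him⟩ : ∃ im : Set K.card.out → ZFSet.{u},
      ∀ S x, x ∈ im S ↔ ∃ a ∈ S, e a = x := by
    refine ⟨fun S => K.sep fun x => ∃ a ∈ S, e a = x, fun S x => ?_⟩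
    rw [ZFSet.mem_sep]
    refine and_iff_right_of_imp ?_
    rintro ⟨a, -, rfl⟩
    exact (hK _).2 ⟨a, rfl⟩
  have hsub : ∀ S, Sub Mem (im S) K := fun S x hx => by
    obtain ⟨a, -, rfl⟩ := (him S x).1 hx
    exact (hK _).2 ⟨a, rfl⟩
  have hme : ∀ S a, e a ∈ im S ↔ a ∈ S := fun S a => by
    rw [him]
    exact ⟨fun ⟨b, hb, hab⟩ => he hab ▸ hb, fun ha => ⟨a, ha, rfl⟩⟩
  let F : Filter K.card.out :=
    { sets := {S | im S ∈ U}
      univ_sets := h.up K _ h.univ (fun x hx => by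
        obtain ⟨a, rfl⟩ := (hK x).1 hx
        exact (hme _ a).2 trivial) (hsub _)
      sets_of_superset := fun {S T} hS hST => h.up (im S) _ hS (fun x hx => by
        obtain ⟨a, ha, rfl⟩ := (him S x).1 hx
        exact (hme _ a).2 (hST ha)) (hsub _)
      inter_sets := fun {S T} hS hT => h.inter (im S) (im T) _ hS hT fun x => by
        constructor
        · intro hx
          obtain ⟨a, ha, rfl⟩ := (him _ x).1 hx
          exact ⟨(hme _ a).2 ha.1, (hme _ a).2 ha.2⟩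
        · rintro ⟨h1, h2⟩
          obtain ⟨a, ha, rfl⟩ := (him _ x).1 h1
          exact (hme _ a).2 ⟨ha, (hme _ a).1 h2⟩ }
  have hF : ∀ S, S ∈ F ↔ im S ∈ U := fun S => Iff.rfl
  have hU : ∀ S, Sᶜ ∉ F ↔ S ∈ F := fun S => by
    constructor
    · intro hS
      refine (h.ultra (im S) (im Sᶜ) (hsub _) fun x => ?_).resolve_right hS
      constructor
      · intro hx
        obtain ⟨a, ha, rfl⟩ := (him _ x).1 hx
        exact ⟨(hK _).2 ⟨a, rfl⟩, fun h' => ha ((hme _ a).1 h')⟩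
      · rintro ⟨h1, h2⟩
        obtain ⟨a, rfl⟩ := (hK x).1 h1
        exact (hme _ a).2 fun h' => h2 ((hme _ a).2 h')
    · intro hS hS'
      obtain ⟨x, hx⟩ := h.proper _ ((hF _).1 (F.inter_sets hS hS'))
      obtain ⟨a, ha, -⟩ := (him _ x).1 hx
      exact ha.2 ha.1
  refine ⟨uncountable_iff.1 h.uncountable, Ultrafilter.ofComplNotMemIff F hU, ⟨fun S hS hSF => ?_⟩,
    fun a ha => ?_⟩
  · refine h.complete (ZFSet.range fun s : S => im s.1) (im (⋂₀ S)) (fun A hA => ?_) ?_ fun x => ?_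
    · obtain ⟨s, rfl⟩ := ZFSet.mem_range.1 hA
      exact hSF s.1 s.2
    · refine cardLt_iff.2 (lt_of_le_of_lt ?_ hS)
      simpa using ZFSet.lift_card_range_le (f := fun s : S => im s.1)
    · constructor
      · intro hx
        obtain ⟨a, ha, rfl⟩ := (him _ x).1 hx
        refine ⟨(hK _).2 ⟨a, rfl⟩, fun A hA => ?_⟩
        obtain ⟨s, rfl⟩ := ZFSet.mem_range.1 hA
        exact (hme _ a).2 (ha s.1 s.2)
      · rintro ⟨h1, h2⟩
        obtain ⟨a, rfl⟩ := (hK x).1 h1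
        exact (hme _ a).2 fun s hs => (hme _ a).1 (h2 _ (ZFSet.mem_range.2 ⟨⟨s, hs⟩, rfl⟩))
  · refine h.free (im {a}) (e a) (fun y => ?_) ha
    show y ∈ im {a} ↔ _
    rw [him]
    exact ⟨fun ⟨b, hb, hy⟩ => hy ▸ congrArg e hb, fun hy => ⟨a, rfl, hy.symm⟩⟩

theorem isMeasure_of_measurable {κ : Cardinal.{u}} (h : IsMeasurableCardinal κ) :
    ∃ K U : ZFSet.{u}, IsMeasure Mem K U := by
  obtain ⟨h0, F, hc, hf⟩ := h
  obtain ⟨K, hκ⟩ : ∃ K : ZFSet.{u}, K.card = κ :=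
    ⟨κ.ord.toZFSet, by rw [Ordinal.card_toZFSet, card_ord]⟩
  obtain ⟨e, he, hK⟩ := exists_enum K hκ
  obtain ⟨U, hU⟩ : ∃ U : ZFSet.{u}, ∀ A, A ∈ U ↔ Sub Mem A K ∧ {a | e a ∈ A} ∈ F :=
    ⟨K.powerset.sep fun A => {a | e a ∈ A} ∈ F, fun A => by
      rw [ZFSet.mem_sep, ZFSet.mem_powerset]
      exact Iff.rfl⟩
  have heK : ∀ a, e a ∈ K := fun a => (hK _).2 ⟨a, rfl⟩
  refine ⟨K, U, uncountable_iff.2 (hκ ▸ h0), fun A hA => ((hU A).1 hA).1, ?_, fun A hA => ?_,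
    fun A B hA hAB hB => ?_, fun A B C hA hB hC => ?_, fun A B hA hB => ?_, fun A x hA hx => ?_,
    fun G C hG hlt hC => ?_⟩
  · exact (hU K).2 ⟨fun _ hx => hx, Filter.univ_mem' heK⟩
  · obtain ⟨a, ha⟩ := F.nonempty_of_mem ((hU A).1 hA).2
    exact ⟨e a, ha⟩
  · exact (hU B).2 ⟨hB, Filter.mem_of_superset ((hU A).1 hA).2 fun a ha => hAB _ ha⟩
  · exact (hU C).2 ⟨fun x hx => ((hU A).1 hA).1 x ((hC x).1 hx).1,
      Filter.mem_of_superset (Filter.inter_mem ((hU A).1 hA).2 ((hU B).1 hB).2)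
        fun a ha => (hC _).2 ha⟩
  · rcases F.mem_or_compl_mem {a | e a ∈ A} with h | h
    · exact Or.inl ((hU A).2 ⟨hA, h⟩)
    · exact Or.inr ((hU B).2 ⟨fun x hx => ((hB x).1 hx).1,
        Filter.mem_of_superset h fun a ha => (hB _).2 ⟨heK a, ha⟩⟩)
  · obtain ⟨a, rfl⟩ := (hK x).1 (((hU A).1 hx).1 x ((hA x).2 rfl))
    exact hf a (Filter.mem_of_superset ((hU A).1 hx).2 fun b hb => he ((hA _).1 hb))
  · have hlt' : #(Shrink.{u} G) < κ := hκ ▸ cardLt_iff.1 hlt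
    have := (Filter.cardinal_iInter_mem (l := (F : Filter κ.out))
      (s := fun i : Shrink.{u} G => {a | e a ∈ ((equivShrink G).symm i).1}) hlt').2
        fun i => ((hU _).1 (hG _ ((equivShrink G).symm i).2)).2
    refine (hU C).2 ⟨fun x hx => ((hC x).1 hx).1, Filter.mem_of_superset this fun a ha => ?_⟩
    refine (hC _).2 ⟨heK a, fun A hA => ?_⟩
    simpa using Set.mem_iInter.1 ha (equivShrink G ⟨A, hA⟩)

end Vale.Agent.P129B.C1

namespace Vale.Agent.P129B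

universe u

/-- In the universe of sets, `HasMeasurable` says that there is a measurable cardinal. -/
theorem faithful_measurable : S.HasMeasurable (fun x y : ZFSet.{u} => x ∈ y) ↔
    ∃ κ : Cardinal.{u}, P129Z.S.IsMeasurableCardinal κ :=
  ⟨fun ⟨_, _, h⟩ => ⟨_, C1.measurable_of_isMeasure h⟩,
    fun ⟨_, h⟩ => C1.isMeasure_of_measurable h⟩

/-- The same with the relation written as in the statement of the independence theorem. -/
theorem faithful_measurable' : S.HasMeasurable (fun x y : ZFSet.{u} => x ∈ (y : Set ZFSet.{u})) ↔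
    ∃ κ : Cardinal.{u}, P129Z.S.IsMeasurableCardinal κ := faithful_measurable

end Vale.Agent.P129B
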